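import Vale.Agent.P109.F674.Done

/-!
# P109: an ergodic zero entropy system which is not a factor of a smooth positive-volume system
-/

open MeasureTheory Set
open Vale.Agent.P109 Vale.Agent.P109.Smooth

namespace Vale.Agent.Results.P109.NotAFactor

/-- There is an ergodic invertible measure preserving transformation of a standard nonatomic
probability space, of entropy zero, which is not even a measurable factor of a smooth
positive-volume system. -/
theorem result :
    ∃ (X : Type) (_ : MeasurableSpace X) (_ : StandardBorelSpace X) (μ : Measure X)
      (_ : IsProbabilityMeasure μ) (T : X ≃ᵐ X),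
      (∀ x, μ {x} = 0) ∧ Ergodic T μ ∧ KS.ksEntropy μ T = 0 ∧ ¬ IsSmoothFactor μ T :=
  F674.main_factor

end Vale.Agent.Results.P109.NotAFactor
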